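import Vale.Agent.Lib.P045.D.H0
import Vale.Agent.Lib.P045.D.H1
import Vale.Agent.Lib.P045.D.H2
import Vale.Agent.Lib.P045.D.H3
import Vale.Agent.Lib.P045.D.H4
import Vale.Agent.Lib.P045.D.H5
import Vale.Agent.Lib.P045.D.H6
import Vale.Agent.Lib.P045.D.H7
import Vale.Agent.Lib.P045.D.H8
import Vale.Agent.Lib.P045.D.H9
import Vale.Agent.Lib.P045.D.H10
import Vale.Agent.Lib.P045.D.H11
import Vale.Agent.Lib.P045.D.H12
import Vale.Agent.Lib.P045.D.H13
import Vale.Agent.Lib.P045.D.H14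
import Vale.Agent.Lib.P045.D.H15
import Vale.Agent.Lib.P045.D.H16
import Vale.Agent.Lib.P045.D.H17
import Vale.Agent.Lib.P045.D.L0
import Vale.Agent.Lib.P045.D.L1
import Vale.Agent.Lib.P045.D.L2
import Vale.Agent.Lib.P045.D.L3
import Vale.Agent.Lib.P045.D.L4
import Vale.Agent.Lib.P045.D.L5
import Vale.Agent.Lib.P045.D.L6
import Vale.Agent.Lib.P045.D.L7
import Vale.Agent.Lib.P045.D.L8
import Vale.Agent.Lib.P045.D.L9
import Vale.Agent.Lib.P045.D.L10
import Vale.Agent.Lib.P045.D.L11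
import Vale.Agent.Lib.P045.D.L12
import Vale.Agent.Lib.P045.D.L13
import Vale.Agent.Lib.P045.D.L14
import Vale.Agent.Lib.P045.D.L15
import Vale.Agent.Lib.P045.D.L16
import Vale.Agent.Lib.P045.D.L17
import Vale.Agent.Lib.P045.D.L18
import Vale.Agent.Lib.P045.D.L19
import Vale.Agent.Lib.P045.D.L20
import Vale.Agent.Lib.P045.D.L21
import Vale.Agent.Lib.P045.D.L22
import Vale.Agent.Lib.P045.D.L23
import Vale.Agent.Lib.P045.D.L24
import Vale.Agent.Lib.P045.D.L25
import Vale.Agent.Lib.P045.D.L26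
import Vale.Agent.Lib.P045.D.L27
import Vale.Agent.Lib.P045.D.L28
import Vale.Agent.Lib.P045.D.L29
import Vale.Agent.Lib.P045.D.L30
import Vale.Agent.Lib.P045.D.L31
import Vale.Agent.Lib.P045.D.L32
import Vale.Agent.Lib.P045.D.L33
import Vale.Agent.Lib.P045.D.L34
import Vale.Agent.Lib.P045.D.L35
import Vale.Agent.Lib.P045.D.L36
import Vale.Agent.Lib.P045.D.L37
import Vale.Agent.Lib.P045.D.L38
import Vale.Agent.Lib.P045.D.L39
import Vale.Agent.Lib.P045.D.L40
import Vale.Agent.Lib.P045.D.L41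
import Vale.Agent.Lib.P045.D.L42
import Vale.Agent.Lib.P045.D.L43
import Vale.Agent.Lib.P045.D.L44
import Vale.Agent.Lib.P045.D.L45
import Vale.Agent.Lib.P045.D.L46
import Vale.Agent.Lib.P045.D.L47
import Vale.Agent.Lib.P045.D.L48
import Vale.Agent.Lib.P045.D.L49
import Vale.Agent.Lib.P045.D.L50
import Vale.Agent.Lib.P045.D.L51
import Vale.Agent.Lib.P045.D.L52
import Vale.Agent.Lib.P045.D.L53
import Vale.Agent.Lib.P045.D.L54
import Vale.Agent.Lib.P045.D.L55
import Vale.Agent.Lib.P045.D.L56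
import Vale.Agent.Lib.P045.D.L57
import Vale.Agent.Lib.P045.D.L58
import Vale.Agent.Lib.P045.D.L59
import Vale.Agent.Lib.P045.D.L60
import Vale.Agent.Lib.P045.D.L61
import Vale.Agent.Lib.P045.D.L62
import Vale.Agent.Lib.P045.D.L63
import Vale.Agent.Lib.P045.D.L64
import Vale.Agent.Lib.P045.D.L65
import Vale.Agent.Lib.P045.D.L66
import Vale.Agent.Lib.P045.D.L67
import Vale.Agent.Lib.P045.D.L68
import Vale.Agent.Lib.P045.D.L69
import Vale.Agent.Lib.P045.D.L70
import Vale.Agent.Lib.P045.D.L71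
import Vale.Agent.Lib.P045.D.L72
import Vale.Agent.Lib.P045.D.L73
import Vale.Agent.Lib.P045.D.L74
import Vale.Agent.Lib.P045.D.L75
import Vale.Agent.Lib.P045.D.L76
import Vale.Agent.Lib.P045.D.L77
import Vale.Agent.Lib.P045.D.L78
import Vale.Agent.Lib.P045.D.L79
import Vale.Agent.Lib.P045.D.L80
import Vale.Agent.Lib.P045.D.L81
import Vale.Agent.Lib.P045.D.L82
import Vale.Agent.Lib.P045.D.L83
import Vale.Agent.Lib.P045.D.L84
import Vale.Agent.Lib.P045.D.L85
import Vale.Agent.Lib.P045.D.L86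
import Vale.Agent.Lib.P045.D.L87
import Vale.Agent.Lib.P045.D.L88
import Vale.Agent.Lib.P045.D.L89
import Vale.Agent.Lib.P045.D.L90
import Vale.Agent.Lib.P045.D.L91
import Vale.Agent.Lib.P045.D.L92
import Vale.Agent.Lib.P045.D.L93
import Vale.Agent.Lib.P045.D.L94
import Vale.Agent.Lib.P045.D.L95
import Vale.Agent.Lib.P045.D.L96
import Vale.Agent.Lib.P045.D.L97
import Vale.Agent.Lib.P045.D.L98
import Vale.Agent.Lib.P045.D.L99
import Vale.Agent.Lib.P045.D.L100
import Vale.Agent.Lib.P045.D.L101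
import Vale.Agent.Lib.P045.D.L102
import Vale.Agent.Lib.P045.D.L103
import Vale.Agent.Lib.P045.D.L104
import Vale.Agent.Lib.P045.D.L105
import Vale.Agent.Lib.P045.D.L106
import Vale.Agent.Lib.P045.D.L107
import Vale.Agent.Lib.P045.D.L108
import Vale.Agent.Lib.P045.D.L109
import Vale.Agent.Lib.P045.D.L110
import Vale.Agent.Lib.P045.D.L111
import Vale.Agent.Lib.P045.D.L112
import Vale.Agent.Lib.P045.D.L113
import Vale.Agent.Lib.P045.D.L114
import Vale.Agent.Lib.P045.D.L115
import Vale.Agent.Lib.P045.D.L116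

namespace Vale.Agent.Lib.P045.D

open Vale.Agent.Lib.P045

theorem allH : RangeOK hitF (nat_lit 0) (nat_lit 8918) :=
  (RangeOK.trans (RangeOK.trans (RangeOK.trans (RangeOK.trans H0r H1r) (RangeOK.trans H2r H3r)) (RangeOK.trans (RangeOK.trans H4r H5r) (RangeOK.trans H6r (RangeOK.trans H7r H8r)))) (RangeOK.trans (RangeOK.trans (RangeOK.trans H9r H10r) (RangeOK.trans H11r H12r)) (RangeOK.trans (RangeOK.trans H13r H14r) (RangeOK.trans H15r (RangeOK.trans H16r H17r)))))

theorem allL : RangeOK lemF (nat_lit 0) (nat_lit 116551) :=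
  (RangeOK.trans (RangeOK.trans (RangeOK.trans (RangeOK.trans (RangeOK.trans (RangeOK.trans L0r (RangeOK.trans L1r L2r)) (RangeOK.trans (RangeOK.trans L3r L4r) (RangeOK.trans L5r L6r))) (RangeOK.trans (RangeOK.trans L7r (RangeOK.trans L8r L9r)) (RangeOK.trans (RangeOK.trans L10r L11r) (RangeOK.trans L12r L13r)))) (RangeOK.trans (RangeOK.trans (RangeOK.trans L14r (RangeOK.trans L15r L16r)) (RangeOK.trans (RangeOK.trans L17r L18r) (RangeOK.trans L19r L20r))) (RangeOK.trans (RangeOK.trans (RangeOK.trans L21r L22r) (RangeOK.trans L23r L24r)) (RangeOK.trans (RangeOK.trans L25r L26r) (RangeOK.trans L27r L28r))))) (RangeOK.trans (RangeOK.trans (RangeOK.trans (RangeOK.trans L29r (RangeOK.trans L30r L31r)) (RangeOK.trans (RangeOK.trans L32r L33r) (RangeOK.trans L34r L35r))) (RangeOK.trans (RangeOK.trans L36r (RangeOK.trans L37r L38r)) (RangeOK.trans (RangeOK.trans L39r L40r) (RangeOK.trans L41r L42r)))) (RangeOK.trans (RangeOK.trans (RangeOK.trans L43r (RangeOK.trans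 L44r L45r)) (RangeOK.trans (RangeOK.trans L46r L47r) (RangeOK.trans L48r L49r))) (RangeOK.trans (RangeOK.trans (RangeOK.trans L50r L51r) (RangeOK.trans L52r L53r)) (RangeOK.trans (RangeOK.trans L54r L55r) (RangeOK.trans L56r L57r)))))) (RangeOK.trans (RangeOK.trans (RangeOK.trans (RangeOK.trans (RangeOK.trans L58r (RangeOK.trans L59r L60r)) (RangeOK.trans (RangeOK.trans L61r L62r) (RangeOK.trans L63r L64r))) (RangeOK.trans (RangeOK.trans L65r (RangeOK.trans L66r L67r)) (RangeOK.trans (RangeOK.trans L68r L69r) (RangeOK.trans L70r L71r)))) (RangeOK.trans (RangeOK.trans (RangeOK.trans L72r (RangeOK.trans L73r L74r)) (RangeOK.trans (RangeOK.trans L75r L76r) (RangeOK.trans L77r L78r))) (RangeOK.trans (RangeOK.trans (RangeOK.trans L79r L80r) (RangeOK.trans L81r L82r)) (RangeOK.trans (RangeOK.trans L83r L84r) (RangeOK.trans L85r L86r))))) (RangeOK.trans (RangeOK.trans (RangeOK.trans (RangeOK.trans L87r (RangeOK.trans L88r L89r)) (RangeOK.trans (RangeOK.trans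 L90r L91r) (RangeOK.trans L92r L93r))) (RangeOK.trans (RangeOK.trans (RangeOK.trans L94r L95r) (RangeOK.trans L96r L97r)) (RangeOK.trans (RangeOK.trans L98r L99r) (RangeOK.trans L100r L101r)))) (RangeOK.trans (RangeOK.trans (RangeOK.trans L102r (RangeOK.trans L103r L104r)) (RangeOK.trans (RangeOK.trans L105r L106r) (RangeOK.trans L107r L108r))) (RangeOK.trans (RangeOK.trans (RangeOK.trans L109r L110r) (RangeOK.trans L111r L112r)) (RangeOK.trans (RangeOK.trans L113r L114r) (RangeOK.trans L115r L116r)))))))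

theorem rootOK : hdrGet (nat_lit 116550) = (nat_lit 69905) := by decide +kernel

end Vale.Agent.Lib.P045.D
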